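import Vale.Agent.P235.H606.PDefs
import Vale.Agent.P235.H296.Half

/-!
# Packing theorem: (SCL), one map for every dyadic scale, localised and added
-/

set_option autoImplicit false

namespace Vale.Agent.P235.H789

open Finset Vale.Agent.P235 Vale.Agent.P235.LL.H296 Vale.Agent.P235.H606

theorem scl : SclStmt := by
  classical
  intro V _ d s K δ hd hs hlip hK hδ hδ1 hF
  have := Fintype.ofFinite V
  choose F hF1 hF2 hF3 using hF
  have hsc : ∀ k : ℤ, ∃ Q : V → V → ℝ, IsL1 Q ∧
      (∀ x y, Q x y ≤ 2 ^ k * |tent (s x / 2 ^ k) - tent (s y / 2 ^ k)| +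
        min (tent (s x / 2 ^ k)) (tent (s y / 2 ^ k)) * F k x y) ∧
      (∀ x y, Q x y ≤ 2 ^ k * (tent (s x / 2 ^ k) + tent (s y / 2 ^ k))) ∧
      ∀ x y, min (tent (s x / 2 ^ k)) (tent (s y / 2 ^ k)) * (min (F k x y) (2 ^ k) / 3) ≤ Q x y :=
    fun k => scale (hF1 k) s (by positivity)
  choose Q hQ hQ1 hQ2 hQ3 using hsc
  set S : Finset ℤ := Finset.univ.image fun x => Int.log 2 (4 / 3 * s x) with hS
  have hk2 : ∀ k : ℤ, (0 : ℝ) < 2 ^ k := fun k => by positivity
  have hd0 : ∀ x y, 0 ≤ d x y := fun x y => hd.nonneg x y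
  refine ⟨fun x y => |s x - s y| + ∑ k ∈ S, Q k x y,
    (isL1_line s).add (IsL1.sum S Q fun k _ => hQ k), ?_, ?_⟩
  · intro x y
    have hKd : 0 ≤ K * d x y := mul_nonneg (by linarith) (hd0 x y)
    have h1 : ∑ k ∈ S, 2 ^ k * |tent (s x / 2 ^ k) - tent (s y / 2 ^ k)| ≤
        ((sc (s x) ∪ sc (s y)).card : ℝ) * (2 * |s x - s y|) := by
      refine sum_few (by positivity) (fun k hk => ?_) fun k => ?_
      · rw [Finset.mem_union, not_or] at hk
        rw [tent_sc (hs x) hk.1, tent_sc (hs y) hk.2]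
        simp
      · have h2 := tent_lip (s x / 2 ^ k) (s y / 2 ^ k)
        rw [← sub_div, abs_div, abs_of_pos (hk2 k)] at h2
        calc 2 ^ k * |tent (s x / 2 ^ k) - tent (s y / 2 ^ k)|
            ≤ 2 ^ k * (2 * (|s x - s y| / 2 ^ k)) := mul_le_mul_of_nonneg_left h2 (hk2 k).le
          _ = 2 * |s x - s y| := by field_simp
    have h2 : ∑ k ∈ S, min (tent (s x / 2 ^ k)) (tent (s y / 2 ^ k)) * F k x y ≤
        ((sc (s x)).card : ℝ) * (K * d x y) := by
      refine sum_few hKd (fun k hk => ?_) fun k => ?_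
      · rw [tent_sc (hs x) hk]
        exact mul_nonpos_of_nonpos_of_nonneg (min_le_left _ _) ((hF1 k).nonneg x y)
      · calc _ ≤ 1 * F k x y :=
            mul_le_mul_of_nonneg_right ((min_le_left _ _).trans (tent_le_one _))
              ((hF1 k).nonneg x y)
          _ ≤ K * d x y := by rw [one_mul]; exact hF2 k x y
    have h3 : ((sc (s x) ∪ sc (s y)).card : ℝ) ≤ 4 := by
      have h4 := Finset.card_union_le (sc (s x)) (sc (s y))
      have h5 := card_sc (s x)
      have h6 := card_sc (s y)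
      have h7 : ((sc (s x) ∪ sc (s y)).card : ℝ) ≤ (sc (s x)).card + (sc (s y)).card := by
        exact_mod_cast h4
      linarith
    have h4 := mul_le_mul_of_nonneg_right h3 (show 0 ≤ 2 * |s x - s y| by positivity)
    have h5 := mul_le_mul_of_nonneg_right (card_sc (s x)) hKd
    have h6 : ∑ k ∈ S, Q k x y ≤ _ := Finset.sum_le_sum fun k _ => hQ1 k x y
    rw [Finset.sum_add_distrib] at h6
    have h7 := hlip x y
    have h8 : d x y ≤ K * d x y := le_mul_of_one_le_left (hd0 x y) hK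
    show |s x - s y| + ∑ k ∈ S, Q k x y ≤ 20 * K * d x y
    have h9 : 20 * K * d x y = 20 * (K * d x y) := by ring
    rw [h9]
    linarith
  · intro x y
    show δ / 100 * min (d x y) (s x) ≤ |s x - s y| + ∑ k ∈ S, Q k x y
    have hs0 : 0 ≤ ∑ k ∈ S, Q k x y := Finset.sum_nonneg fun k _ => (hQ k).nonneg x y
    set m := min (d x y) (s x) with hm
    have hm1 : m ≤ d x y := min_le_left _ _
    have hm2 : m ≤ s x := min_le_right _ _
    by_cases hdd : δ / 100 * m ≤ |s x - s y|
    · linarith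
    push Not at hdd
    have hab := abs_nonneg (s x - s y)
    have hm0 : 0 < m := by
      by_contra h
      push Not at h
      have : δ / 100 * m ≤ 0 := mul_nonpos_of_nonneg_of_nonpos (by positivity) h
      linarith
    have hx0 : 0 < s x := by linarith
    have hδm : δ / 100 * m ≤ 1 / 100 * s x :=
      mul_le_mul (by linarith) hm2 hm0.le (by norm_num)
    have hlx : 0 < 4 / 3 * s x := by linarith
    set k := Int.log 2 (4 / 3 * s x) with hk
    have h3 : ((2 : ℕ) : ℝ) ^ k ≤ 4 / 3 * s x := Int.zpow_log_le_self (by norm_num) hlx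
    have h4 : 4 / 3 * s x < ((2 : ℕ) : ℝ) ^ (k + 1) := Int.lt_zpow_succ_log_self (by norm_num) _
    push_cast at h3 h4
    rw [zpow_add_one₀ (by norm_num)] at h4
    have hkS : k ∈ S := Finset.mem_image.2 ⟨x, Finset.mem_univ x, rfl⟩
    have h5 : 1 / 2 ≤ tent (s x / 2 ^ k) := by
      refine tent_half ?_ ?_
      · rw [le_div_iff₀ (hk2 k)]; linarith
      · rw [div_le_iff₀ (hk2 k)]; linarith
    have h6 : 3 / 8 ≤ tent (s y / 2 ^ k) := by
      have h7 := tent_lip (s x / 2 ^ k) (s y / 2 ^ k)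
      rw [← sub_div, abs_div, abs_of_pos (hk2 k)] at h7
      have h8 : |s x - s y| / 2 ^ k ≤ 3 / 64 := by
        rw [div_le_iff₀ (hk2 k)]; linarith
      have h9 := (abs_le.1 h7).2
      linarith
    have h7 : 3 / 8 ≤ min (tent (s x / 2 ^ k)) (tent (s y / 2 ^ k)) :=
      le_min (by linarith) h6
    have hlow := hF3 k x y (by linarith)
    have h2k := hk2 k
    have hδk : δ * 2 ^ k ≤ 2 ^ k := mul_le_of_le_one_left h2k.le hδ1
    have hδk2 : δ * (2 / 3 * s x) ≤ δ * 2 ^ k := mul_le_mul_of_nonneg_left (by linarith) hδ.le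
    have hδm2 : δ * m ≤ δ * s x := mul_le_mul_of_nonneg_left hm2 hδ.le
    have hδm3 : δ * m ≤ d x y := (mul_le_of_le_one_left hm0.le hδ1).trans hm1
    have hδm0 : 0 < δ * m := mul_pos hδ hm0
    have h8a : 2 / 3 * (δ * m) ≤ min (d x y) (δ * 2 ^ k) := le_min (by linarith) (by linarith)
    have h8 : 2 / 3 * (δ * m) ≤ min (F k x y) (2 ^ k) :=
      le_min (h8a.trans hlow) (h8a.trans ((min_le_right _ _).trans hδk))
    have h9 := hQ3 k x y
    have h10 : Q k x y ≤ ∑ k ∈ S, Q k x y :=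
      Finset.single_le_sum (f := fun k => Q k x y) (fun k _ => (hQ k).nonneg x y) hkS
    have h11 : 3 / 8 * (2 / 3 * (δ * m) / 3) ≤ min (tent (s x / 2 ^ k)) (tent (s y / 2 ^ k)) *
        (min (F k x y) (2 ^ k) / 3) :=
      mul_le_mul h7 (by linarith) (by linarith) (by linarith)
    have h12 : δ / 100 * m = δ * m / 100 := by ring
    rw [h12]
    linarith

end Vale.Agent.P235.H789
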